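import Vale.Agent.P287Q.G.Hdx.EF
import Vale.Agent.P269.Hdg.ExO

/-!
# The Hodge decomposition of the complete intersections of the statement
-/

namespace Vale.Agent.P269

/-- **The Hodge decomposition theorem.** -/
theorem St.hdgEx : St.HdgEx :=
  St.hdgEx_of fun h _ hn _ _ _ hπ _ _ _ e => Hdg.Ex.FH_disjoint h hn hπ e

end Vale.Agent.P269
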